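import Vale.Agent.P167.H397.K.Obs
import Vale.Agent.P167.H446.G.Arith

/-!
# P167, general `q`, [SAND-GEO], [HST-K]: the obstacles in the rotated frame
-/

set_option autoImplicit false

namespace Vale.Agent.P167.H397.K

open Set Metric Filter Topology
open Vale.Agent.P167.E6 Vale.Agent.P167.E2
open Vale.Agent.P167.H634 (RO LO SqD)
open Vale.Agent.P167.H72.SD (dk)
open Vale.Agent.P167.H713.Q
open Vale.Agent.P167.SG (Jd)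
open Vale.Agent.P167.H446.G (rt psr dist_rt rt_ne)

/-- The frame: `psr δ v₀ ψ z = frm δ v₀ (ψ z)`. -/
noncomputable def frm (δ : ℝ) (v₀ : ℤ × ℤ) (w : ℂ) : ℂ := rt * w + -((H446.G.dl δ : ℂ) * pt v₀)

theorem psr_eq (δ : ℝ) (v₀ : ℤ × ℤ) (ψ : ℂ → ℂ) (z : ℂ) : psr δ v₀ ψ z = frm δ v₀ (ψ z) := rfl

theorem psr_img (δ : ℝ) (v₀ : ℤ × ℤ) (ψ : ℂ → ℂ) (X : Set ℂ) :
    psr δ v₀ ψ '' X = frm δ v₀ '' (ψ '' X) := by rw [image_image]; rfl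

theorem dist_frm (δ : ℝ) (v₀ : ℤ × ℤ) (x y : ℂ) : dist (frm δ v₀ x) (frm δ v₀ y) = dist x y := by
  unfold frm
  rw [dist_add_right, dist_rt]

theorem isom_frm (δ : ℝ) (v₀ : ℤ × ℤ) : Isometry (frm δ v₀) := Isometry.of_dist_eq (dist_frm δ v₀)

theorem frm_inj (δ : ℝ) (v₀ : ℤ × ℤ) : Function.Injective (frm δ v₀) := (isom_frm δ v₀).injective

theorem frm_surj (δ : ℝ) (v₀ : ℤ × ℤ) : Function.Surjective (frm δ v₀) := by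
  intro y
  refine ⟨rt⁻¹ * (y + (H446.G.dl δ : ℂ) * pt v₀), ?_⟩
  unfold frm
  rw [mul_inv_cancel_left₀ rt_ne]
  ring

theorem mem_frm {δ : ℝ} {v₀ : ℤ × ℤ} {X : Set ℂ} {x : ℂ} : frm δ v₀ x ∈ frm δ v₀ '' X ↔ x ∈ X :=
  (frm_inj δ v₀).mem_set_image

theorem cont_frm (δ : ℝ) (v₀ : ℤ × ℤ) : Continuous (frm δ v₀) := (isom_frm δ v₀).continuous

/-- The frame is a homeomorphism. -/
noncomputable def frmH (δ : ℝ) (v₀ : ℤ × ℤ) : ℂ ≃ₜ ℂ :=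
  (Equiv.ofBijective (frm δ v₀) ⟨frm_inj δ v₀, frm_surj δ v₀⟩).toHomeomorphOfIsInducing
    (isom_frm δ v₀).isUniformInducing.isInducing

theorem frmH_eq (δ : ℝ) (v₀ : ℤ × ℤ) : (frmH δ v₀ : ℂ → ℂ) = frm δ v₀ := rfl

theorem closure_frm (δ : ℝ) (v₀ : ℤ × ℤ) (X : Set ℂ) :
    closure (frm δ v₀ '' X) = frm δ v₀ '' closure X := by
  rw [← frmH_eq]
  exact ((frmH δ v₀).image_closure X).symm

theorem ball_frm (δ : ℝ) (v₀ : ℤ × ℤ) (x : ℂ) (r : ℝ) :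
    frm δ v₀ '' ball x r = ball (frm δ v₀ x) r := by
  ext y
  obtain ⟨y, rfl⟩ := frm_surj δ v₀ y
  rw [mem_frm, mem_ball, mem_ball, dist_frm]

/-- A set in the frame. -/
theorem exists_frm (δ : ℝ) (v₀ : ℤ × ℤ) (Y : Set ℂ) : ∃ X, Y = frm δ v₀ '' X :=
  ⟨frm δ v₀ ⁻¹' Y, (image_preimage_eq Y (frm_surj δ v₀)).symm⟩

theorem conn_frm {δ : ℝ} {v₀ : ℤ × ℤ} {X : Set ℂ} :
    IsPreconnected (frm δ v₀ '' X) ↔ IsPreconnected X := by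
  rw [← frmH_eq]
  exact (frmH δ v₀).isPreconnected_image

theorem jd_frm {δ : ℝ} {v₀ : ℤ × ℤ} {D : Set ℂ} {r : ℝ} {u v : ℂ} :
    Jd (frm δ v₀ '' D) r (frm δ v₀ u) (frm δ v₀ v) ↔ Jd D r u v := by
  constructor
  · rintro ⟨C, h1, h2, h3, h4, h5⟩
    obtain ⟨C, rfl⟩ := exists_frm δ v₀ C
    rw [← ball_frm, image_subset_image_iff (frm_inj δ v₀)] at h3
    exact ⟨C, conn_frm.1 h1, (image_subset_image_iff (frm_inj δ v₀)).1 h2, h3, mem_frm.1 h4,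
      mem_frm.1 h5⟩
  · rintro ⟨C, h1, h2, h3, h4, h5⟩
    refine ⟨frm δ v₀ '' C, conn_frm.2 h1, image_mono h2, ?_, mem_frm.2 h4, mem_frm.2 h5⟩
    rw [← ball_frm]
    exact image_mono h3

end Vale.Agent.P167.H397.K
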