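import Mathlib

/-!
# P167, general `q`, [SAND-GEO]: the constants of the obstacles

`ρ = 8 ⌈a s / δ⌉`, `R = ⌊r / δ⌋` (446's `rS`, `rR`, 638's `rho`, `RR`), `4 ≤ a`.
-/

set_option autoImplicit false

namespace Vale.Agent.P167.H397.K

theorem rho_ge {a s δ : ℝ} (ha : 4 ≤ a) (hδ : 0 < δ) (h : δ ≤ s) : 32 ≤ 8 * ⌈a * s / δ⌉₊ := by
  have h1 : (4 : ℝ) ≤ a * s / δ := by
    rw [le_div_iff₀ hδ]
    exact mul_le_mul ha h hδ.le (by linarith)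
  have h2 := h1.trans (Nat.le_ceil _)
  have h3 : 4 ≤ ⌈a * s / δ⌉₊ := by exact_mod_cast h2
  omega

theorem le_rho {a s δ : ℝ} (hδ : 0 < δ) : 8 * (a * s) ≤ δ * ((8 * ⌈a * s / δ⌉₊ : ℕ) : ℝ) := by
  have h := Nat.le_ceil (a * s / δ)
  rw [div_le_iff₀ hδ] at h
  push_cast
  linarith

theorem rho_le {a s δ : ℝ} (hδ : 0 < δ) (hs : 0 ≤ a * s) :
    δ * ((8 * ⌈a * s / δ⌉₊ : ℕ) : ℝ) ≤ 8 * (a * s) + 8 * δ := by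
  have h := (Nat.ceil_lt_add_one (show 0 ≤ a * s / δ by positivity)).le
  have h1 : δ * (⌈a * s / δ⌉₊ : ℝ) ≤ δ * (a * s / δ + 1) := mul_le_mul_of_nonneg_left h hδ.le
  have h2 : δ * (a * s / δ + 1) = a * s + δ := by field_simp
  push_cast
  linarith

theorem rr_le {r δ : ℝ} (hδ : 0 < δ) (hr : 0 ≤ r) : δ * (⌊r / δ⌋₊ : ℝ) ≤ r := by
  have h := Nat.floor_le (show 0 ≤ r / δ by positivity)
  rw [le_div_iff₀ hδ] at h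
  linarith

theorem lt_rr {r δ : ℝ} (hδ : 0 < δ) : r - δ < δ * (⌊r / δ⌋₊ : ℝ) := by
  have h := Nat.lt_floor_add_one (r / δ)
  rw [div_lt_iff₀ hδ] at h
  linarith

/-- `7 ρ ≤ R`. -/
theorem rho_rr {a s r δ : ℝ} (ha : 4 ≤ a) (hδ : 0 < δ) (h : δ ≤ s) (hr : 72 * (a * s) ≤ r) :
    7 * (8 * ⌈a * s / δ⌉₊) ≤ ⌊r / δ⌋₊ := by
  have hs : 0 < s := by linarith
  have h4 : 4 * s ≤ a * s := mul_le_mul_of_nonneg_right ha hs.le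
  refine Nat.le_floor ?_
  rw [le_div_iff₀ hδ]
  have h1 := rho_le (a := a) hδ (by linarith : 0 ≤ a * s)
  push_cast at h1 ⊢
  linarith

/-- All the inequalities of `hk`, `hstK`. -/
theorem cst_all {a s r δ : ℝ} (ha : 4 ≤ a) (hδ : 0 < δ) (h : δ ≤ s) (hr : 72 * (a * s) ≤ r) :
    32 ≤ 8 * ⌈a * s / δ⌉₊ ∧ 7 * (8 * ⌈a * s / δ⌉₊) ≤ ⌊r / δ⌋₊ ∧
    δ * ((⌊r / δ⌋₊ : ℝ) + 2) ≤ 2 * r ∧
    2 * ((8 * ⌈a * s / δ⌉₊ : ℕ) : ℝ) * δ ≤ 20 * (a * s) ∧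
    (∀ ℓ : ℝ, 12 * ℓ ≤ a * s → 96 * ℓ ≤ δ * ((8 * ⌈a * s / δ⌉₊ : ℕ) : ℝ)) ∧
    (∀ rf : ℝ, 160 * (a * s) ≤ rf → 16 * (((8 * ⌈a * s / δ⌉₊ : ℕ) : ℝ) * δ) ≤ rf) := by
  have hs : 0 < s := by linarith
  have h4 : 4 * s ≤ a * s := mul_le_mul_of_nonneg_right ha hs.le
  have h1 := rho_le (a := a) hδ (by linarith : 0 ≤ a * s)
  have h2 := le_rho (a := a) (s := s) hδ
  have h3 := rr_le hδ (by linarith : 0 ≤ r)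
  refine ⟨rho_ge ha hδ h, rho_rr ha hδ h hr, by linarith, by linarith, fun ℓ hℓ => by linarith,
    fun rf hrf => by linarith⟩

end Vale.Agent.P167.H397.K
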