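import Vale.Agent.P167.E2.Curve
import Vale.Agent.P167.E2.OmDef

/-!
# P167, general `q`, [SAND-GEO]: finite unions of convex sets

The domain `Om δ S \ pl '' Icc 0 j` is a finite union of convex sets; so it has finitely many
components in every convex region.
-/

set_option autoImplicit false

namespace Vale.Agent.P167.H397.K

open Set
open Vale.Agent.P167.E6 Vale.Agent.P167.E2

/-- Finite unions of convex sets. -/
def FU (X : Set ℂ) : Prop := ∃ F : Set (Set ℂ), F.Finite ∧ (∀ C ∈ F, Convex ℝ C) ∧ ⋃₀ F = X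

theorem fu_convex {X : Set ℂ} (h : Convex ℝ X) : FU X :=
  ⟨{X}, finite_singleton X, fun C hC => by rw [mem_singleton_iff.1 hC]; exact h,
    sUnion_singleton X⟩

theorem FU.union {X Y : Set ℂ} (hX : FU X) (hY : FU Y) : FU (X ∪ Y) := by
  obtain ⟨F, f1, f2, rfl⟩ := hX
  obtain ⟨G, g1, g2, rfl⟩ := hY
  refine ⟨F ∪ G, f1.union g1, fun C hC => hC.elim (f2 C) (g2 C), sUnion_union F G⟩

theorem FU.inter {X Y : Set ℂ} (hX : FU X) (hY : FU Y) : FU (X ∩ Y) := by
  obtain ⟨F, f1, f2, rfl⟩ := hX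
  obtain ⟨G, g1, g2, rfl⟩ := hY
  refine ⟨image2 (· ∩ ·) F G, f1.image2 _ g1, ?_, ?_⟩
  · rintro _ ⟨C, hC, D, hD, rfl⟩
    exact (f2 C hC).inter (g2 D hD)
  · ext z
    simp only [mem_sUnion, mem_image2, mem_inter_iff]
    constructor
    · rintro ⟨_, ⟨C, hC, D, hD, rfl⟩, hz⟩
      exact ⟨⟨C, hC, hz.1⟩, D, hD, hz.2⟩
    · rintro ⟨⟨C, hC, hz1⟩, D, hD, hz2⟩
      exact ⟨C ∩ D, ⟨C, hC, D, hD, rfl⟩, hz1, hz2⟩

theorem fu_iUnion {ι : Type*} (s : Finset ι) {X : ι → Set ℂ} (h : ∀ i ∈ s, FU (X i)) :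
    FU (⋃ i ∈ s, X i) := by
  classical
  induction s using Finset.induction_on with
  | empty =>
    refine ⟨∅, finite_empty, fun C hC => absurd hC (notMem_empty C), ?_⟩
    simp
  | insert a s ha ih =>
    rw [Finset.set_biUnion_insert]
    exact (h a (Finset.mem_insert_self a s)).union
      (ih fun i hi => h i (Finset.mem_insert_of_mem hi))

theorem fu_iInter {ι : Type*} (s : Finset ι) {X : ι → Set ℂ} (h : ∀ i ∈ s, FU (X i)) :
    FU (⋂ i ∈ s, X i) := by
  classical
  induction s using Finset.induction_on with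
  | empty =>
    have e : (⋂ i ∈ (∅ : Finset ι), X i) = univ := by simp
    rw [e]
    exact fu_convex convex_univ
  | insert a s ha ih =>
    rw [Finset.set_biInter_insert]
    exact (h a (Finset.mem_insert_self a s)).inter
      (ih fun i hi => h i (Finset.mem_insert_of_mem hi))

theorem fu_lt (f : ℂ →ₗ[ℝ] ℝ) (c : ℝ) : FU {x | f x < c} :=
  fu_convex (convex_halfSpace_lt f.isLinear c)

theorem fu_gt (f : ℂ →ₗ[ℝ] ℝ) (c : ℝ) : FU {x | c < f x} :=
  fu_convex (convex_halfSpace_gt f.isLinear c)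

/-- The complement of a segment. -/
theorem fu_segment (a b : ℂ) : FU (segment ℝ a b)ᶜ := by
  by_cases hab : a = b
  · subst hab
    have e : (segment ℝ a a)ᶜ = ({x : ℂ | x.re < a.re} ∪ {x | a.re < x.re}) ∪
        ({x | x.im < a.im} ∪ {x | a.im < x.im}) := by
      ext x
      rw [segment_same]
      simp only [mem_compl_iff, mem_singleton_iff, mem_union, mem_ofPred_eq]
      rw [← not_iff_not]
      push Not
      rw [Complex.ext_iff]
      constructor
      · rintro ⟨h1, h2⟩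
        exact ⟨⟨h1.ge, h1.le⟩, h2.ge, h2.le⟩
      · rintro ⟨⟨h1, h2⟩, h3, h4⟩
        exact ⟨le_antisymm h2 h1, le_antisymm h4 h3⟩
    rw [e]
    exact ((fu_lt Complex.reLm a.re).union (fu_gt Complex.reLm a.re)).union
      ((fu_lt Complex.imLm a.im).union (fu_gt Complex.imLm a.im))
  · set u : ℂ := b - a with hu
    have hu0 : u ≠ 0 := sub_ne_zero.2 (Ne.symm hab)
    -- the coordinates along and across the segment
    set m : ℂ →ₗ[ℝ] ℝ := u.re • Complex.reLm + u.im • Complex.imLm with hm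
    set l : ℂ →ₗ[ℝ] ℝ := u.re • Complex.imLm - u.im • Complex.reLm with hl
    have hmx : ∀ x, m x = u.re * x.re + u.im * x.im := fun x => rfl
    have hlx : ∀ x, l x = u.re * x.im - u.im * x.re := fun x => rfl
    have hN : 0 < u.re ^ 2 + u.im ^ 2 := by
      have := Complex.normSq_pos.2 hu0
      rw [Complex.normSq_apply] at this
      nlinarith
    have e : (segment ℝ a b)ᶜ = ({x : ℂ | l x < l a} ∪ {x | l a < l x}) ∪
        ({x | m x < m a} ∪ {x | m b < m x}) := by
      ext x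
      simp only [mem_compl_iff, mem_union, mem_ofPred_eq]
      rw [← not_iff_not]
      push Not
      rw [segment_eq_image']
      simp only [hmx, hlx, mem_image, mem_Icc]
      have hb : b = a + u := by rw [hu]; ring
      constructor
      · rintro ⟨t, ⟨t0, t1⟩, rfl⟩
        have hbr : b.re = a.re + u.re := by rw [hu, Complex.sub_re]; ring
        have hbi : b.im = a.im + u.im := by rw [hu, Complex.sub_im]; ring
        simp only [← hu, Complex.add_re, Complex.add_im, Complex.real_smul, Complex.re_ofReal_mul,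
          Complex.im_ofReal_mul]
        rw [hbr, hbi]
        refine ⟨⟨?_, ?_⟩, ?_, ?_⟩
        · exact le_of_eq (by ring)
        · exact le_of_eq (by ring)
        · nlinarith
        · nlinarith
      · rintro ⟨⟨h1, h2⟩, h3, h4⟩
        have h5 : u.re * (x.im - a.im) = u.im * (x.re - a.re) := by linarith
        rw [hb] at h4
        simp only [Complex.add_re, Complex.add_im] at h4
        refine ⟨(u.re * (x.re - a.re) + u.im * (x.im - a.im)) / (u.re ^ 2 + u.im ^ 2),
          ⟨div_nonneg (by linarith) hN.le, (div_le_one hN).2 (by linarith)⟩, ?_⟩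
        rw [← hu]
        apply Complex.ext
        · simp only [Complex.add_re, Complex.real_smul, Complex.re_ofReal_mul]
          field_simp
          linear_combination u.im * h5
        · simp only [Complex.add_im, Complex.real_smul, Complex.im_ofReal_mul]
          field_simp
          linear_combination (-u.re) * h5
    rw [e]
    exact ((fu_lt l _).union (fu_gt l _)).union ((fu_lt m _).union (fu_gt m _))

/-- The piece of a polyline. -/
theorem lin_piece (x : ℕ → ℂ) (i : ℕ) :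
    lin x '' Icc (i : ℝ) (i + 1) = segment ℝ (x i) (x (i + 1)) := by
  rw [segment_eq_image']
  ext z
  simp only [mem_image, mem_Icc]
  constructor
  · rintro ⟨t, ⟨h1, h2⟩, rfl⟩
    refine ⟨t - i, ⟨by linarith, by linarith⟩, ?_⟩
    rw [lin_eq x i (Or.inl h1) h2, Complex.real_smul]
  · rintro ⟨t, ⟨h1, h2⟩, rfl⟩
    refine ⟨i + t, ⟨by linarith, by linarith⟩, ?_⟩
    rw [lin_eq x i (Or.inl (by linarith)) (by linarith), Complex.real_smul]
    congr 3
    ring

theorem lin_img (x : ℕ → ℂ) (j : ℕ) : lin x '' Icc (0 : ℝ) (j + 1 : ℕ) =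
    ⋃ i ∈ Finset.range (j + 1), segment ℝ (x i) (x (i + 1)) := by
  induction j with
  | zero =>
    have := lin_piece x 0
    simpa using this
  | succ j ih =>
    rw [Finset.range_add_one, Finset.set_biUnion_insert, ← ih, ← lin_piece, union_comm,
      ← image_union]
    congr 1
    rw [Icc_union_Icc_eq_Icc]
    · push_cast; rfl
    · positivity
    · linarith

/-- The complement of a polyline. -/
theorem fu_pl {n : ℕ} (p : ZMod n → ℤ × ℤ) (k : ℕ) (δ : ℝ) (A : Finset (Sym2 (ℤ × ℤ))) (j : ℕ) :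
    FU (pl p k δ A '' Icc 0 (j : ℝ))ᶜ := by
  set y : ℕ → ℂ := fun i => (δ : ℂ) * xv p k A i with hy
  have hpl : ∀ t, pl p k δ A t = lin y t := by
    intro t
    unfold pl lin
    simp only [hy]
    ring
  have e0 : pl p k δ A '' Icc 0 (j : ℝ) = lin y '' Icc 0 (j : ℝ) :=
    image_congr fun t _ => hpl t
  rw [e0]
  cases j with
  | zero =>
    have e1 : lin y '' Icc (0 : ℝ) (0 : ℕ) = segment ℝ (y 0) (y 0) := by
      rw [Nat.cast_zero, Icc_self, image_singleton, lin_zero, segment_same]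
    rw [e1]
    exact fu_segment _ _
  | succ j =>
    rw [lin_img, compl_iUnion₂]
    exact fu_iInter _ fun i _ => fu_segment _ _

theorem convex_box (δ : ℝ) (f : ℤ × ℤ) : Convex ℝ {z : ℂ | ∃ w : ℂ, (δ * f.1 ≤ w.re ∧
    w.re ≤ δ * (f.1 + 1) ∧ δ * f.2 ≤ w.im ∧ w.im ≤ δ * (f.2 + 1)) ∧
    |z.re - w.re| < 3 / 8 * δ ∧ |z.im - w.im| < 3 / 8 * δ} := by
  rintro x ⟨w, ⟨w1, w2, w3, w4⟩, w5, w6⟩ y ⟨v, ⟨v1, v2, v3, v4⟩, v5, v6⟩ a b ha hb hab
  rw [abs_lt] at w5 w6 v5 v6
  have hb' : b = 1 - a := by linarith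
  subst hb'
  refine ⟨(a : ℂ) * w + ((1 - a : ℝ) : ℂ) * v, ?_, ?_⟩
  · simp only [Complex.add_re, Complex.add_im, Complex.re_ofReal_mul, Complex.im_ofReal_mul]
    refine ⟨?_, ?_, ?_, ?_⟩ <;> nlinarith
  · simp only [Complex.add_re, Complex.add_im, Complex.real_smul, Complex.re_ofReal_mul,
      Complex.im_ofReal_mul]
    rcases ha.lt_or_eq with ha' | rfl
    · constructor <;> rw [abs_lt] <;> constructor <;> nlinarith
    · constructor <;> rw [abs_lt] <;> constructor <;> linarith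

theorem fu_Om (δ : ℝ) (S : Finset (ℤ × ℤ)) : FU (Om δ S) := by
  have e : Om δ S = ⋃ f ∈ S, {z : ℂ | ∃ w : ℂ, (δ * f.1 ≤ w.re ∧
      w.re ≤ δ * (f.1 + 1) ∧ δ * f.2 ≤ w.im ∧ w.im ≤ δ * (f.2 + 1)) ∧
      |z.re - w.re| < 3 / 8 * δ ∧ |z.im - w.im| < 3 / 8 * δ} := by
    ext z
    simp only [Om, region, mem_ofPred_eq, mem_iUnion]
    constructor
    · rintro ⟨w, ⟨f, hf, h1⟩, h2⟩
      exact ⟨f, hf, w, h1, h2⟩
    · rintro ⟨f, hf, w, h1, h2⟩
      exact ⟨w, ⟨f, hf, h1⟩, h2⟩
  rw [e]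
  exact fu_iUnion S fun f _ => fu_convex (convex_box δ f)

/-- **The domain after `j` steps is a finite union of convex sets.** -/
theorem fu_dom {n : ℕ} (p : ZMod n → ℤ × ℤ) (k : ℕ) (S : Finset (ℤ × ℤ))
    (A : Finset (Sym2 (ℤ × ℤ))) (j : ℕ) (δ : ℝ) : FU (Om δ S \ pl p k δ A '' Icc 0 (j : ℝ)) := by
  rw [sdiff_eq]
  exact (fu_Om δ S).inter (fu_pl p k δ A j)

/-- Finitely many components. -/
theorem FU.comp {X : Set ℂ} (h : FU X) :
    {Y : Set ℂ | ∃ u ∈ X, Y = connectedComponentIn X u}.Finite := by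
  classical
  obtain ⟨F, h1, h2, rfl⟩ := h
  refine (h1.image fun C => if hC : C.Nonempty then connectedComponentIn (⋃₀ F) hC.some else ∅).subset
    ?_
  rintro Y ⟨u, hu, rfl⟩
  obtain ⟨C, hC, huC⟩ := hu
  refine ⟨C, hC, ?_⟩
  have hne : C.Nonempty := ⟨u, huC⟩
  simp only [dif_pos hne]
  have h3 : C ⊆ connectedComponentIn (⋃₀ F) u :=
    (h2 C hC).isPreconnected.subset_connectedComponentIn huC (subset_sUnion_of_mem hC)
  exact (connectedComponentIn_eq (h3 hne.some_mem)).symm

end Vale.Agent.P167.H397.K
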