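import Vale.Agent.P167.H397.K.Frm
import Vale.Agent.P167.SG.Cls3

/-!
# P167, general `q`, [SAND-GEO], [HST-K]: the fields `K` of `Hst`

* `HK`: the fields of `SG.Hst` about the obstacles of conflict pairs, no flat part (Stage II too);
* `hk`: they hold in the frame, for every origin `v₀`;
* `kbox`: the obstacles do not meet the flat box;
* `hstK`: together with the teeth.
-/

set_option autoImplicit false

namespace Vale.Agent.P167.H397.K

open Set Metric Filter Topology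
open Vale.Agent.P153.R2.L1 (HH)
open Vale.Agent.P164 (loewnerDomain)
open Vale.Agent.P167.E6 Vale.Agent.P167.E2
open Vale.Agent.P167.H634 (RO LO SqD)
open Vale.Agent.P167.H72.SD (dk)
open Vale.Agent.P167.H713.Q
open Vale.Agent.P167.H756 (Drv)
open Vale.Agent.P167.SG (Jd TipJ Hst Flt Bf jd_mono bf_mono bf_near seg_re seg_im)

/-- The fields of `Hst` about the obstacles. -/
structure HK {ι : Type} (D IN : Set ℂ) (tp : ℂ) (r₀ ρ' r' ℓ s₂ : ℝ) (K : ι → Set ℂ) : Prop where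
  ksub : ∀ i, K i ⊆ D
  kconn : ∀ i, IsPreconnected (K i)
  ksmall : ∀ i, ∀ x ∈ K i, ∀ y ∈ K i, dist x y ≤ s₂
  kbd : ∀ i, ∃ x ∈ closure (K i), x ∉ D
  kcl : ∀ i, closure (K i) ∩ D ⊆ K i
  nc : ∀ u ∈ D, ∀ y ∈ D, dist u y ≤ 12 * ℓ → ¬ Jd D r₀ u y → (¬ ∃ z ∈ IN, Jd D ρ' u z) →
    (¬ ∃ z ∈ IN, Jd D ρ' y z) → ¬ TipJ D r' tp u → ¬ TipJ D r' tp y → ∃ i, u ∈ K i

section

variable {n : ℕ} {p : ZMod n → ℤ × ℤ} {k : ℕ} {S : Finset (ℤ × ℤ)} {A : Finset (Sym2 (ℤ × ℤ))}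
  {j : ℕ} {δ : ℝ} {c : Bool} {ρ R : ℕ}

/-- The obstacles in the frame, indexed by the finite set `Obs`. -/
noncomputable def Kf {n : ℕ} (p : ZMod n → ℤ × ℤ) (k : ℕ) (S : Finset (ℤ × ℤ))
    (A : Finset (Sym2 (ℤ × ℤ))) (j : ℕ) (δ : ℝ) (c : Bool) (ρ R : ℕ) (v₀ : ℤ × ℤ) :
    ↥(Obs p k S A j δ c ρ R) → Set ℂ := fun i => frm δ v₀ '' (i : Set ℂ)

theorem finite_idx (hδ : 0 < δ) : Finite ↥(Obs p k S A j δ c ρ R) :=
  (finite_Obs hδ c ρ R).to_subtype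

theorem iUnion_Kf (v₀ : ℤ × ℤ) : (⋃ i, Kf p k S A j δ c ρ R v₀ i) =
    frm δ v₀ '' OO p k S A j δ c ρ R := by
  rw [OO, sUnion_eq_iUnion, image_iUnion]
  rfl

/-- **[HST-K]** in the frame, for every origin. -/
theorem hk (hδ : 0 < δ) (hρ : 32 ≤ ρ) (hR : ρ ≤ R) (v₀ : ℤ × ℤ) {r₀ ρ' r' ℓ s₂ : ℝ}
    (hr₀ : δ * (R + 2) ≤ r₀) (hρ' : 2 * ρ * δ ≤ ρ') (hr' : δ * (R + 2) ≤ r')
    (hℓ : 96 * ℓ ≤ δ * ρ) (hs : 2 * ρ * δ ≤ s₂) :
    HK (frm δ v₀ '' Dn p k S A j δ) (frm δ v₀ '' Sd p k S A j δ c) (frm δ v₀ (tip p k A j δ))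
        r₀ ρ' r' ℓ s₂ (Kf p k S A j δ c ρ R v₀) := by
  obtain ⟨h1, h2, h3, h4, h5, h6⟩ :=
    obs (p := p) (k := k) (S := S) (A := A) (j := j) (c := c) hδ hρ hR
  refine ⟨fun i => image_mono (h1 _ i.2).1, fun i => conn_frm.2 (h1 _ i.2).2.1, ?_, ?_, ?_, ?_⟩
  · rintro i _ ⟨x, hx, rfl⟩ _ ⟨y, hy, rfl⟩
    rw [dist_frm]
    exact ((h1 _ i.2).2.2 x hx y hy).trans hs
  · intro i
    obtain ⟨s, g1, g2⟩ := h2 _ i.2
    refine ⟨frm δ v₀ s, ?_, fun h => g2 (mem_frm.1 h)⟩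
    rw [Kf, closure_frm]
    exact mem_image_of_mem _ g1
  · intro i
    rw [Kf, closure_frm, ← image_inter (frm_inj δ v₀)]
    exact image_mono (h3 _ i.2)
  · rintro _ ⟨u, hu, rfl⟩ _ ⟨y, hy, rfl⟩ g1 g2 g3 g4 g5 -
    rw [dist_frm] at g1
    have key : ∃ K ∈ Obs p k S A j δ c ρ R, u ∈ K := by
      refine h6 u hu y hy (by linarith) (fun h => g2 (jd_mono (jd_frm.2 h) hr₀)) ?_ ?_ ?_
      · rintro ⟨C, c1, c2, c3, c4, z, c5, c6⟩
        exact g3 ⟨frm δ v₀ z, mem_image_of_mem _ c6, jd_mono (jd_frm.2 ⟨C, c1, c2, c3, c4, c5⟩) hρ'⟩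
      · rintro ⟨C, c1, c2, c3, c4, z, c5, c6⟩
        exact g4 ⟨frm δ v₀ z, mem_image_of_mem _ c6, jd_mono (jd_frm.2 ⟨C, c1, c2, c3, c4, c5⟩) hρ'⟩
      · rintro ⟨C, c1, c2, c3, c4, c5⟩
        refine g5 ⟨frm δ v₀ '' C, conn_frm.2 c1, image_mono c2, ?_, mem_image_of_mem _ c4, ?_⟩
        · rw [← ball_frm]
          exact image_mono (c3.trans (ball_subset_ball hr'))
        · rw [closure_frm]
          exact mem_image_of_mem _ c5
    obtain ⟨K, hK, huK⟩ := key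
    exact ⟨⟨K, hK⟩, mem_image_of_mem _ huK⟩

/-- The closed squares off `Bad` in the frame. -/
theorem kf_sq (hδ : 0 < δ) (hρ : 32 ≤ ρ) (v₀ : ℤ × ℤ) {x : ℤ × ℤ} (hx : x ∈ dk p k S A j)
    (hxB : x ∉ Bad p k S A j δ c ρ R) (i : ↥(Obs p k S A j δ c ρ R)) :
    Disjoint (frm δ v₀ '' SqD δ x) (Kf p k S A j δ c ρ R v₀ i) :=
  (disjoint_image_iff (frm_inj δ v₀)).2 (Ob_sq hδ hρ hx hxB i.2)

/-- The conflict pair of an obstacle. -/
theorem kf_cfl (hδ : 0 < δ) (hρ : 32 ≤ ρ) (v₀ : ℤ × ℤ) (i : ↥(Obs p k S A j δ c ρ R)) :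
    ∃ (z : ℤ × ℤ) (u w : ℂ), (Even (z.1 + z.2) ↔ c = true) ∧
      Cfl p k S A j δ c z ρ R u w ∧ frm δ v₀ u ∈ Kf p k S A j δ c ρ R v₀ i ∧
      Kf p k S A j δ c ρ R v₀ i ⊆ frm δ v₀ '' Cn p k S A j δ z ρ u := by
  obtain ⟨K, z, u, w, g1, g2, rfl⟩ := i
  exact ⟨z, u, w, g1, g2, mem_image_of_mem _ (mem_Ob hδ hρ g2),
    image_mono (Ob_Cn hδ hρ g2 (by linarith))⟩

end

/-! ### The flat box -/

section

variable {ψ : ℂ → ℂ} {xb rf cg X1 X3 δ : ℝ} {Gt : Set ℂ} {x₁ : ℂ} {T R : ℝ} {W : ℝ → ℝ} {t : ℝ}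

/-- Near points of a box are joined. -/
theorem join' (H : Flt ψ xb rf cg X1 X3 δ Gt x₁) (Hd : Drv T R W t) (h1 : 4 * R ≤ X1)
    (h2 : 16 * T ≤ X1 ^ 2) {u v : ℂ} {d a : ℝ} (hu : u ∈ ψ '' loewnerDomain W t)
    (hv : v ∈ ψ '' loewnerDomain W t) (hub : u ∈ Bf xb a) (hd : 0 < d)
    (huv : dist u v ≤ d) (hsm : 2 * d + 4 * δ ≤ rf - a) :
    Jd (ψ '' loewnerDomain W t) (2 * d + 4 * δ) u v := by
  have hδ := H.hδ
  have hrf := H.hrf
  have hvb := bf_near hub huv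
  have hub' : u ∈ Bf xb rf := bf_mono (by linarith) hub
  have hvb' : v ∈ Bf xb rf := bf_mono (by linarith) hvb
  have hul := H.low' Hd h1 h2 hu hub'
  have hvl := H.low' Hd h1 h2 hv hvb'
  have hsub : ψ '' loewnerDomain W t ⊆ ψ '' HH := image_mono fun z hz =>
    Vale.Agent.P164.im_pos_of_dom Hd.nn hz
  have hdre : |v.re - u.re| ≤ d := by
    rw [dist_comm, dist_eq_norm] at huv
    have := (Complex.abs_re_le_norm (v - u)).trans huv
    rwa [Complex.sub_re] at this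
  have hdim : |v.im - u.im| ≤ d := by
    rw [dist_comm, dist_eq_norm] at huv
    have := (Complex.abs_im_le_norm (v - u)).trans huv
    rwa [Complex.sub_im] at this
  obtain ⟨hu1, hu2⟩ := hub
  obtain ⟨hv1, hv2⟩ := hvb
  rw [abs_le] at hdre hdim
  rw [abs_lt] at hu1 hu2 hv1 hv2
  set h : ℝ := max (max u.im v.im) δ + δ with hh
  have hh1 : u.im ≤ h - δ := by
    rw [hh]; linarith [le_max_left u.im v.im, le_max_left (max u.im v.im) δ]
  have hh2 : v.im ≤ h - δ := by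
    rw [hh]; linarith [le_max_right u.im v.im, le_max_left (max u.im v.im) δ]
  have hh3 : 2 * δ ≤ h := by rw [hh]; linarith [le_max_right (max u.im v.im) δ]
  have hh4 : h ≤ u.im + (d + 3 * δ) := by
    have : max (max u.im v.im) δ ≤ u.im + (d + 2 * δ) := by
      refine max_le (max_le (by linarith) (by linarith)) (by linarith)
    rw [hh]; linarith
  have hh5 : h ≤ v.im + (d + 3 * δ) := by
    have : max (max u.im v.im) δ ≤ v.im + (d + 2 * δ) := by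
      refine max_le (max_le (by linarith) (by linarith)) (by linarith)
    rw [hh]; linarith
  set u' : ℂ := ⟨u.re, h⟩ with hu'
  set v' : ℂ := ⟨v.re, h⟩ with hv'
  have c1 := (convex_segment (𝕜 := ℝ) u u').isPreconnected
  have c2 := (convex_segment (𝕜 := ℝ) u' v').isPreconnected
  have c3 := (convex_segment (𝕜 := ℝ) v' v).isPreconnected
  have c12 : IsPreconnected (segment ℝ u u' ∪ segment ℝ u' v') :=
    IsPreconnected.union u' (right_mem_segment ℝ _ _) (left_mem_segment ℝ _ _) c1 c2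
  refine ⟨(segment ℝ u u' ∪ segment ℝ u' v') ∪ segment ℝ v' v,
    IsPreconnected.union v' (Or.inr (right_mem_segment ℝ _ _)) (left_mem_segment ℝ _ _) c12 c3,
    ?_, ?_, Or.inl (Or.inl (left_mem_segment ℝ _ _)), Or.inr (right_mem_segment ℝ _ _)⟩
  · rintro w ((hw | hw) | hw)
    · have a1 := seg_re hw
      have a2 := seg_im hw
      simp only [hu', min_self, max_self] at a1
      have e1 : w.re = u.re := le_antisymm a1.2 a1.1
      have e2 : min u.im h = u.im := min_eq_left (by linarith)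
      have e3 : max u.im h = h := max_eq_right (by linarith)
      simp only [hu', e2, e3] at a2
      have hwb : w ∈ Bf xb rf := by
        refine ⟨?_, ?_⟩
        · rw [e1, abs_lt]; constructor <;> linarith
        · rw [abs_lt]; constructor <;> linarith
      exact H.dom_of Hd h1 h2 (H.lift u (hsub hu) hub' w hwb e1 a2.1) hwb
    · have a1 := seg_re hw
      have a2 := seg_im hw
      simp only [hu', hv', min_self, max_self] at a2
      simp only [hu', hv'] at a1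
      have b1 : xb - rf < min u.re v.re := lt_min (by linarith) (by linarith)
      have b2 : max u.re v.re < xb + rf := max_lt (by linarith) (by linarith)
      have hwb : w ∈ Bf xb rf := by
        refine ⟨?_, ?_⟩
        · rw [abs_lt]; constructor <;> linarith
        · rw [abs_lt]; constructor <;> linarith
      exact H.dom_of Hd h1 h2 (H.up w hwb (by linarith)) hwb
    · have a1 := seg_re hw
      have a2 := seg_im hw
      simp only [hv', min_self, max_self] at a1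
      have e1 : w.re = v.re := le_antisymm a1.2 a1.1
      have e2 : min h v.im = v.im := min_eq_right (by linarith)
      have e3 : max h v.im = h := max_eq_left (by linarith)
      simp only [hv', e2, e3] at a2
      have hwb : w ∈ Bf xb rf := by
        refine ⟨?_, ?_⟩
        · rw [e1, abs_lt]; constructor <;> linarith
        · rw [abs_lt]; constructor <;> linarith
      exact H.dom_of Hd h1 h2 (H.lift v (hsub hv) hvb' w hwb e1 a2.1) hwb
  · have key : ∀ w : ℂ, |w.re - u.re| ≤ d → |w.im - u.im| ≤ d + 3 * δ →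
        w ∈ ball u (2 * d + 4 * δ) := by
      intro w hw1 hw2
      rw [mem_ball, dist_eq_norm]
      have := Complex.norm_le_abs_re_add_abs_im (w - u)
      rw [Complex.sub_re, Complex.sub_im] at this
      linarith
    rintro w ((hw | hw) | hw)
    · have a1 := seg_re hw
      have a2 := seg_im hw
      simp only [hu', min_self, max_self] at a1
      have e1 : w.re = u.re := le_antisymm a1.2 a1.1
      have e2 : min u.im h = u.im := min_eq_left (by linarith)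
      have e3 : max u.im h = h := max_eq_right (by linarith)
      simp only [hu', e2, e3] at a2
      apply key w
      · rw [e1, sub_self, abs_zero]; exact hd.le
      · rw [abs_le]; constructor <;> linarith
    · have a1 := seg_re hw
      have a2 := seg_im hw
      simp only [hu', hv', min_self, max_self] at a2
      simp only [hu', hv'] at a1
      have b1 : u.re - d ≤ min u.re v.re := le_min (by linarith) (by linarith)
      have b2 : max u.re v.re ≤ u.re + d := max_le (by linarith) (by linarith)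
      apply key w
      · rw [abs_le]; constructor <;> linarith
      · rw [abs_le]; constructor <;> linarith
    · have a1 := seg_re hw
      have a2 := seg_im hw
      simp only [hv', min_self, max_self] at a1
      have e1 : w.re = v.re := le_antisymm a1.2 a1.1
      have e2 : min h v.im = v.im := min_eq_right (by linarith)
      have e3 : max h v.im = h := max_eq_left (by linarith)
      simp only [hv', e2, e3] at a2
      apply key w
      · rw [e1, abs_le]; constructor <;> linarith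
      · rw [abs_le]; constructor <;> linarith

end

section

variable {n : ℕ} {p : ZMod n → ℤ × ℤ} {k : ℕ} {S : Finset (ℤ × ℤ)} {A : Finset (Sym2 (ℤ × ℤ))}
  {j : ℕ} {δ : ℝ} {c : Bool} {ρ R : ℕ}
  {ψ : ℂ → ℂ} {xb rf cg X1 X3 δ₀ : ℝ} {Gt : Set ℂ} {x₁ : ℂ} {T B : ℝ} {W : ℝ → ℝ} {t : ℝ}

/-- **The regions of the members of conflict pairs do not meet the flat box.** -/
theorem kbox (H : Flt ψ xb rf cg X1 X3 δ₀ Gt x₁) (Hd : Drv T B W t) (h1 : 4 * B ≤ X1)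
    (h2 : 16 * T ≤ X1 ^ 2) (hδ : 0 < δ) (hρ : 32 ≤ ρ) (hR : 7 * ρ ≤ R) {v₀ : ℤ × ℤ}
    (hD : ψ '' loewnerDomain W t = frm δ v₀ '' Dn p k S A j δ) (hδ₀ : δ₀ ≤ 3 * δ)
    (hrf : 16 * (ρ * δ) ≤ rf) {z : ℤ × ℤ} {u w : ℂ} (hC : Cfl p k S A j δ c z ρ R u w) :
    Disjoint (frm δ v₀ '' Cn p k S A j δ z ρ u) (Bf xb (rf / 2)) := by
  rw [Set.disjoint_left]
  rintro _ ⟨y, hy, rfl⟩ hyb
  have h16 : (32 : ℝ) ≤ ρ := by exact_mod_cast hρ
  have hRr : 7 * (ρ : ℝ) ≤ R := by exact_mod_cast hR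
  have hδρ : δ * 32 ≤ δ * ρ := mul_le_mul_of_nonneg_left h16 hδ.le
  have hδR : δ * (7 * ρ) ≤ δ * R := mul_le_mul_of_nonneg_left hRr hδ.le
  have hyo := (Cn_sub hy).2
  have hδ₀' := H.hδ
  -- the distances
  have d1 : dist (frm δ v₀ y) (frm δ v₀ u) ≤ 2 * (ρ * δ) := by
    rw [dist_frm]
    refine (dist_qR (oR_qR hyo) (oR_qR (oR_mono hδ (by linarith) hC.u_reg))).trans ?_
    linarith
  have d2 : dist (frm δ v₀ u) (frm δ v₀ w) ≤ ρ * δ := by
    rw [dist_frm]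
    refine (dist_qR (oR_qR hC.u_reg) (oR_qR hC.w_reg)).trans ?_
    linarith
  have hub : frm δ v₀ u ∈ Bf xb (rf / 2 + 2 * (ρ * δ)) := bf_near hyb d1
  have hj := join' H Hd h1 h2 (u := frm δ v₀ u) (v := frm δ v₀ w) (d := ρ * δ)
    (by rw [hD]; exact mem_frm.2 hC.u_mem) (by rw [hD]; exact mem_frm.2 hC.w_mem) hub
    (by positivity) d2 (by linarith)
  rw [hD, jd_frm] at hj
  obtain ⟨C, c1, c2, c3, c4, c5⟩ := hj
  have hsub : C ⊆ Dn p k S A j δ ∩ oR δ z R := by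
    intro x hx
    refine ⟨c2 hx, ?_⟩
    have h3 := mem_ball.1 (c3 hx)
    obtain ⟨g1, g2⟩ := coord_le_dist (x := x) (y := u)
    obtain ⟨u1, u2⟩ := hC.u_reg
    rw [abs_le] at g1 g2
    rw [abs_lt] at u1 u2
    constructor <;> rw [abs_lt] <;> constructor <;> linarith
  exact hC.nj (c1.subset_connectedComponentIn c4 hsub c5)

/-- The obstacles do not meet the flat box. -/
theorem kf_box (H : Flt ψ xb rf cg X1 X3 δ₀ Gt x₁) (Hd : Drv T B W t) (h1 : 4 * B ≤ X1)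
    (h2 : 16 * T ≤ X1 ^ 2) (hδ : 0 < δ) (hρ : 32 ≤ ρ) (hR : 7 * ρ ≤ R) {v₀ : ℤ × ℤ}
    (hD : ψ '' loewnerDomain W t = frm δ v₀ '' Dn p k S A j δ) (hδ₀ : δ₀ ≤ 3 * δ)
    (hrf : 16 * (ρ * δ) ≤ rf) (i : ↥(Obs p k S A j δ c ρ R)) :
    Disjoint (Kf p k S A j δ c ρ R v₀ i) (Bf xb (rf / 2)) := by
  obtain ⟨z, u, w, -, g2, -, g4⟩ := kf_cfl hδ hρ v₀ i
  exact (kbox H Hd h1 h2 hδ hρ hR hD hδ₀ hrf g2).mono_left g4

/-- **[HST-K]** with the teeth `Th`. -/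
theorem hstK (H : Flt ψ xb rf cg X1 X3 δ₀ Gt x₁) (Hd : Drv T B W t) (h1 : 4 * B ≤ X1)
    (h2 : 16 * T ≤ X1 ^ 2) (hδ : 0 < δ) (hρ : 32 ≤ ρ) (hR : 7 * ρ ≤ R) {v₀ : ℤ × ℤ}
    (hD : ψ '' loewnerDomain W t = frm δ v₀ '' Dn p k S A j δ) (hδ₀ : δ₀ ≤ 3 * δ)
    (hrf : 16 * (ρ * δ) ≤ rf) {κ : Type} {Th : κ → Set ℂ}
    {σ ν r₀ ρ' r' ℓ s₂ : ℝ}
    (t1 : ∀ i, Th i ⊆ ψ '' HH ∧ IsPreconnected (Th i) ∧ Th i ⊆ Bf xb rf)
    (t2 : ∀ i, ∀ x ∈ Th i, ∀ y ∈ Th i, dist x y ≤ s₂)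
    (t3 : ∀ i, ∀ x ∈ Th i, x.im ≤ 0)
    (t4 : ∀ i, ∃ s ∈ closure (Th i), s ∉ ψ '' HH)
    (t5 : ∀ x ∈ ψ '' HH, x ∈ Bf xb (rf / 2) → x.im ≤ 0 → ∃ i, x ∈ Th i)
    (hr₀ : δ * (R + 2) ≤ r₀) (hρ' : 2 * ρ * δ ≤ ρ') (hr' : δ * (R + 2) ≤ r')
    (hℓ : 96 * ℓ ≤ δ * ρ) (hs : 2 * ρ * δ ≤ s₂)
    (hσ : |σ| = 1) (hpc : IsPreconnected (ψ '' loewnerDomain W t)ᶜ)
    (hside : ∀ w ∈ loewnerDomain W t, ψ w ∈ frm δ v₀ '' Sd p k S A j δ c → ∃ x : ℝ, 0 ≤ σ * x ∧
      dist (SG.pos W t w) (Vale.Agent.P153.R2.R1.mb 1 Complex.I x) ≤ ν)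
    (htip : ∀ C ⊆ ψ '' loewnerDomain W t, frm δ v₀ (tip p k A j δ) ∈ closure C →
      ∀ ε > 0, ∃ w ∈ loewnerDomain W t, ψ w ∈ C ∧ dist (SG.pos W t w) (-1) < ε) :
    Hst σ ν r₀ ρ' r' ℓ s₂ xb rf ψ W t (frm δ v₀ (tip p k A j δ))
        (frm δ v₀ '' Sd p k S A j δ c) (Sum.elim (Kf p k S A j δ c ρ R v₀) Th) := by
  have hK := hk (p := p) (k := k) (S := S) (A := A) (j := j) (c := c) hδ hρ
    (by omega : ρ ≤ R) v₀ hr₀ hρ' hr' hℓ hs
  have hbox := kf_box (c := c) H Hd h1 h2 hδ hρ hR hD hδ₀ hrf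
  rw [← hD] at hK
  have hsub : ψ '' loewnerDomain W t ⊆ ψ '' HH := image_mono fun z hz =>
    Vale.Agent.P164.im_pos_of_dom Hd.nn hz
  refine ⟨hσ, hpc, ?_, ?_, ?_, ?_, ?_, ?_, hside, htip, ?_⟩
  · rintro (i | i)
    · exact hK.ksub i
    · intro x hx
      exact H.dom_of Hd h1 h2 ((t1 i).1 hx) ((t1 i).2.2 hx)
  · rintro (i | i)
    · exact hK.kconn i
    · exact (t1 i).2.1
  · rintro (i | i)
    · exact hK.ksmall i
    · exact t2 i
  · rintro (i | i)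
    · exact hK.kbd i
    · obtain ⟨s, g1, g2⟩ := t4 i
      exact ⟨s, g1, fun h => g2 (hsub h)⟩
  · rintro (i | i)
    · intro x hx hxb
      exact absurd hxb (Set.disjoint_left.1 (hbox i) hx)
    · intro x hx _
      exact t3 i x hx
  · intro x hx hxb him
    obtain ⟨i, hi⟩ := t5 x (hsub hx) hxb him
    exact ⟨Sum.inr i, hi⟩
  · intro u hu y hy g1 g2 g3 g4 g5 g6
    obtain ⟨i, hi⟩ := hK.nc u hu y hy g1 g2 g3 g4 g5 g6
    exact ⟨Sum.inl i, hi⟩

end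

end Vale.Agent.P167.H397.K
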