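import Vale.Agent.P167.H397.K.Fu
import Vale.Agent.P167.H713.Q.Comp
import Vale.Agent.P167.H713.Q.SeamD
import Vale.Agent.P167.SG.Pos

/-!
# P167, general `q`, [SAND-GEO], [OBS]: the obstacles of one history

`Ob c ρ R z u w`: the component of the member `u` of a conflict pair in the part of the domain in the
closed region of the box of radius `ρ - 1`. There are finitely many; they are in the domain, small,
relatively closed, reach the boundary, are disjoint from the closed squares off `Bad`, and every pair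
of near points which are not joined and see neither the other side nor the tip is in them.
-/

set_option autoImplicit false

namespace Vale.Agent.P167.H397.K

open Set Metric Filter Topology
open Vale.Agent.P167.E6 Vale.Agent.P167.E2
open Vale.Agent.P167.H634 (RO LO SqD)
open Vale.Agent.P167.H72.SD (dk)
open Vale.Agent.P167.H713.Q
open Vale.Agent.P167.SG (Jd)

/-- The closed region of the box `Bq z R`, mesh `δ`. -/
def qR (δ : ℝ) (z : ℤ × ℤ) (R : ℝ) : Set ℂ :=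
  {w | |w.re - w.im - δ * z.1| ≤ δ * R ∧ |w.re + w.im - δ * z.2| ≤ δ * R}

theorem isClosed_qR (δ : ℝ) (z : ℤ × ℤ) (R : ℝ) : IsClosed (qR δ z R) := by
  have h1 : IsClosed {w : ℂ | |w.re - w.im - δ * z.1| ≤ δ * R} :=
    isClosed_le (by fun_prop) continuous_const
  have h2 : IsClosed {w : ℂ | |w.re + w.im - δ * z.2| ≤ δ * R} :=
    isClosed_le (by fun_prop) continuous_const
  exact h1.inter h2

theorem convex_qR (δ : ℝ) (z : ℤ × ℤ) (R : ℝ) : Convex ℝ (qR δ z R) := by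
  intro x hx y hy a b ha hb hab
  obtain ⟨x1, x2⟩ := hx
  obtain ⟨y1, y2⟩ := hy
  rw [abs_le] at x1 x2 y1 y2
  simp only [qR, mem_ofPred_eq, Complex.add_re, Complex.add_im, Complex.real_smul, Complex.mul_re,
    Complex.mul_im, Complex.ofReal_re, Complex.ofReal_im, zero_mul, sub_zero, add_zero]
  have hb' : b = 1 - a := by linarith
  subst hb'
  refine ⟨abs_le.2 ⟨?_, ?_⟩, abs_le.2 ⟨?_, ?_⟩⟩ <;> nlinarith

theorem oR_mono {δ : ℝ} (hδ : 0 < δ) {z : ℤ × ℤ} {r r' : ℝ} (h : r ≤ r') : oR δ z r ⊆ oR δ z r' := by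
  have : δ * r ≤ δ * r' := mul_le_mul_of_nonneg_left h hδ.le
  exact fun w hw => ⟨hw.1.trans_le this, hw.2.trans_le this⟩

theorem oR_qR {δ : ℝ} {z : ℤ × ℤ} {r : ℝ} : oR δ z r ⊆ qR δ z r :=
  fun _ hw => ⟨hw.1.le, hw.2.le⟩

theorem qR_oR {δ : ℝ} (hδ : 0 < δ) {z : ℤ × ℤ} {r r' : ℝ} (h : r < r') : qR δ z r ⊆ oR δ z r' := by
  have : δ * r < δ * r' := mul_lt_mul_of_pos_left h hδ
  exact fun w hw => ⟨hw.1.trans_lt this, hw.2.trans_lt this⟩

/-- The distance from the two coordinates. -/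
theorem dist_le_coord {x y : ℂ} {d : ℝ} (h1 : |(x.re - x.im) - (y.re - y.im)| ≤ d)
    (h2 : |(x.re + x.im) - (y.re + y.im)| ≤ d) : dist x y ≤ d := by
  have hd : 0 ≤ d := (abs_nonneg _).trans h1
  rw [dist_eq_norm, ← abs_of_nonneg hd, ← Real.sqrt_sq_eq_abs]
  apply Real.le_sqrt_of_sq_le
  rw [Complex.sq_norm, Complex.normSq_apply, Complex.sub_re, Complex.sub_im]
  have a1 := sq_le_sq' (abs_le.1 h1).1 (abs_le.1 h1).2
  have a2 := sq_le_sq' (abs_le.1 h2).1 (abs_le.1 h2).2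
  nlinarith

theorem coord_le_dist {x y : ℂ} : |(x.re - x.im) - (y.re - y.im)| ≤ 2 * dist x y ∧
    |(x.re + x.im) - (y.re + y.im)| ≤ 2 * dist x y := by
  have h1 := Complex.abs_re_le_norm (x - y)
  have h2 := Complex.abs_im_le_norm (x - y)
  rw [Complex.sub_re, ← dist_eq_norm] at h1
  rw [Complex.sub_im, ← dist_eq_norm] at h2
  rw [abs_le] at h1 h2
  constructor <;> rw [abs_le] <;> constructor <;> linarith

/-- Two points of a closed region. -/
theorem dist_qR {δ : ℝ} {z : ℤ × ℤ} {r : ℝ} {x y : ℂ} (hx : x ∈ qR δ z r) (hy : y ∈ qR δ z r) :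
    dist x y ≤ 2 * (δ * r) := by
  obtain ⟨x1, x2⟩ := hx
  obtain ⟨y1, y2⟩ := hy
  rw [abs_le] at x1 x2 y1 y2
  refine dist_le_coord ?_ ?_ <;> rw [abs_le] <;> constructor <;> linarith

section

variable {n : ℕ} (p : ZMod n → ℤ × ℤ) (k : ℕ) (S : Finset (ℤ × ℤ)) (A : Finset (Sym2 (ℤ × ℤ)))
  (j : ℕ) (δ : ℝ)

/-- The obstacle of the member `u` of a conflict pair in the box of centre `z`. -/
def Ob (ρ : ℝ) (z : ℤ × ℤ) (u : ℂ) : Set ℂ :=
  connectedComponentIn (Dn p k S A j δ ∩ qR δ z (ρ - 1)) u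

/-- The set of the obstacles. -/
def Obs (c : Bool) (ρ R : ℕ) : Set (Set ℂ) :=
  {K | ∃ (z : ℤ × ℤ) (u w : ℂ), (Even (z.1 + z.2) ↔ c = true) ∧ Cfl p k S A j δ c z ρ R u w ∧
    K = Ob p k S A j δ ρ z u}

variable {p k S A j δ}

theorem fu_qR (z : ℤ × ℤ) (r : ℝ) : FU (Dn p k S A j δ ∩ qR δ z r) :=
  (fu_dom p k S A j δ).inter (fu_convex (convex_qR δ z r))

theorem bdd_Om (δ : ℝ) (S : Finset (ℤ × ℤ)) : Bornology.IsBounded (Om δ S) := by
  have hr : Bornology.IsBounded (region δ S) := by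
    have e : region δ S = ⋃ f ∈ S, {z : ℂ | δ * f.1 ≤ z.re ∧ z.re ≤ δ * (f.1 + 1) ∧
        δ * f.2 ≤ z.im ∧ z.im ≤ δ * (f.2 + 1)} := by
      ext z
      simp only [region, mem_ofPred_eq, mem_iUnion, exists_prop]
    rw [e]
    refine (Bornology.isBounded_biUnion S.finite_toSet).2 fun f _ => ?_
    have h : {z : ℂ | δ * f.1 ≤ z.re ∧ z.re ≤ δ * (f.1 + 1) ∧
        δ * f.2 ≤ z.im ∧ z.im ≤ δ * (f.2 + 1)} ⊆
        Icc (δ * f.1) (δ * (f.1 + 1)) ×ℂ Icc (δ * f.2) (δ * (f.2 + 1)) := by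
      rintro z ⟨h1, h2, h3, h4⟩
      exact ⟨⟨h1, h2⟩, h3, h4⟩
    exact (isCompact_Icc.reProdIm isCompact_Icc).isBounded.subset h
  obtain ⟨B, hB⟩ := hr.exists_norm_le
  refine isBounded_iff_forall_norm_le.2 ⟨B + |δ|, ?_⟩
  rintro z ⟨w, hw, h1, h2⟩
  have h3 := hB w hw
  have h4 : ‖z - w‖ ≤ |z.re - w.re| + |z.im - w.im| := by
    have := Complex.norm_le_abs_re_add_abs_im (z - w)
    rwa [Complex.sub_re, Complex.sub_im] at this
  have h5 := norm_sub_norm_le z w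
  have h6 := le_abs_self δ
  have h7 := abs_nonneg δ
  linarith

/-- **There are finitely many obstacles.** -/
theorem finite_Obs (hδ : 0 < δ) (c : Bool) (ρ R : ℕ) : (Obs p k S A j δ c ρ R).Finite := by
  obtain ⟨B, hB⟩ := (bdd_Om δ S).exists_norm_le
  obtain ⟨M, hM⟩ : ∃ M : ℕ, (2 * B + δ * ρ) / δ ≤ M := exists_nat_ge _
  have hfin : {z : ℤ × ℤ | |z.1| ≤ M ∧ |z.2| ≤ M}.Finite := by
    refine ((Set.finite_Icc (-(M : ℤ)) M).prod (Set.finite_Icc (-(M : ℤ)) M)).subset ?_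
    rintro z ⟨h1, h2⟩
    exact ⟨abs_le.1 h1, abs_le.1 h2⟩
  refine (hfin.biUnion fun z _ => (fu_qR (p := p) (k := k) (S := S) (A := A) (j := j) (δ := δ) z
    ((ρ : ℝ) - 1)).comp.insert (∅ : Set ℂ)).subset ?_
  rintro K ⟨z, u, w, -, h, rfl⟩
  have hu := h.u_reg
  have hb := hB u h.u_mem.1
  have key : ∀ a : ℝ, ∀ m : ℤ, |a| ≤ 2 * B → |a - δ * m| < δ * (ρ / 2) → |m| ≤ (M : ℤ) := by
    intro a m ha hm
    have h1 : δ * |(m : ℝ)| ≤ 2 * B + δ * ρ := by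
      rw [← abs_of_pos hδ, ← abs_mul]
      have h2 := abs_sub_abs_le_abs_sub (δ * m) a
      rw [abs_sub_comm] at h2
      have h3 : δ * ((ρ : ℝ) / 2) ≤ δ * ρ :=
        mul_le_mul_of_nonneg_left (by have : (0 : ℝ) ≤ ρ := by positivity
                                      linarith) hδ.le
      rw [abs_of_pos hδ]
      linarith
    have h2 : |(m : ℝ)| ≤ M := by
      rw [mul_comm, ← le_div_iff₀ hδ] at h1
      exact h1.trans hM
    have h3 : ((|m| : ℤ) : ℝ) ≤ ((M : ℤ) : ℝ) := by push_cast; exact h2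
    exact_mod_cast h3
  have hre := (Complex.abs_re_le_norm u).trans hb
  have him := (Complex.abs_im_le_norm u).trans hb
  rw [abs_le] at hre him
  refine mem_iUnion₂.2 ⟨z, ⟨key _ _ ?_ hu.1, key _ _ ?_ hu.2⟩, ?_⟩
  · rw [abs_le]; constructor <;> linarith
  · rw [abs_le]; constructor <;> linarith
  · by_cases hm : u ∈ Dn p k S A j δ ∩ qR δ z ((ρ : ℝ) - 1)
    · exact Or.inr ⟨u, hm, rfl⟩
    · exact Or.inl (connectedComponentIn_eq_empty hm)

variable {c : Bool} {ρ R : ℕ} {z : ℤ × ℤ} {u w : ℂ}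

theorem Ob_sub : Ob p k S A j δ ρ z u ⊆ Dn p k S A j δ ∩ qR δ z (ρ - 1) :=
  connectedComponentIn_subset _ _

theorem conn_Ob : IsPreconnected (Ob p k S A j δ ρ z u) := isPreconnected_connectedComponentIn

theorem mem_Ob (hδ : 0 < δ) (hρ : 32 ≤ ρ) (h : Cfl p k S A j δ c z ρ R u w) :
    u ∈ Ob p k S A j δ ρ z u := by
  refine mem_connectedComponentIn ⟨h.u_mem, ?_⟩
  have h16 : (32 : ℝ) ≤ ρ := by exact_mod_cast hρ
  exact oR_qR (oR_mono hδ (by linarith) h.u_reg)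

theorem Ob_Cn (hδ : 0 < δ) (hρ : 32 ≤ ρ) (h : Cfl p k S A j δ c z ρ R u w) {r : ℝ}
    (hr : (ρ : ℝ) - 1 < r) : Ob p k S A j δ ρ z u ⊆ Cn p k S A j δ z r u := by
  have h1 := mem_Ob hδ hρ h
  refine conn_Ob.subset_connectedComponentIn h1 fun x hx => ?_
  exact ⟨(Ob_sub hx).1, qR_oR hδ hr (Ob_sub hx).2⟩

/-- A component is relatively closed. -/
theorem comp_closed {X : Set ℂ} {a x : ℂ} (ha : a ∈ X) (hx : x ∈ closure (connectedComponentIn X a))
    (hX : x ∈ X) : x ∈ connectedComponentIn X a := by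
  have h1 : IsPreconnected (insert x (connectedComponentIn X a)) :=
    isPreconnected_connectedComponentIn.subset_closure (subset_insert _ _)
      (insert_subset hx subset_closure)
  exact h1.subset_connectedComponentIn (Or.inr (mem_connectedComponentIn ha))
    (insert_subset hX (connectedComponentIn_subset _ _)) (mem_insert _ _)

theorem Ob_closed (hδ : 0 < δ) (hρ : 32 ≤ ρ) (h : Cfl p k S A j δ c z ρ R u w) :
    closure (Ob p k S A j δ ρ z u) ∩ Dn p k S A j δ ⊆ Ob p k S A j δ ρ z u := by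
  rintro x ⟨h1, h2⟩
  have h3 : x ∈ qR δ z ((ρ : ℝ) - 1) :=
    closure_minimal (fun y hy => (Ob_sub hy).2) (isClosed_qR δ z _) h1
  exact comp_closed (Ob_sub (mem_Ob hδ hρ h)) h1 ⟨h2, h3⟩

/-- **The obstacles reach the boundary.** -/
theorem Ob_bd (hδ : 0 < δ) (hρ : 32 ≤ ρ) (hR : ρ ≤ R) (h : Cfl p k S A j δ c z ρ R u w) :
    ∃ s ∈ closure (Ob p k S A j δ ρ z u), s ∉ Dn p k S A j δ := by
  by_contra hcon
  push Not at hcon
  have h16 : (32 : ℝ) ≤ ρ := by exact_mod_cast hρ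
  have hRr : (ρ : ℝ) ≤ R := by exact_mod_cast hR
  set X : Set ℂ := Dn p k S A j δ ∩ oR δ z ((ρ : ℝ) - 1) with hX
  have hXo : IsOpen X := (isOpen_Dn hδ).inter (isOpen_oR δ z _)
  have huX : u ∈ X := ⟨h.u_mem, oR_mono hδ (by linarith) h.u_reg⟩
  set V : Set ℂ := connectedComponentIn X u with hV
  have hVo : IsOpen V := hXo.connectedComponentIn
  have hVK : V ⊆ Ob p k S A j δ ρ z u :=
    connectedComponentIn_mono u fun x hx => ⟨hx.1, oR_qR hx.2⟩
  have hsub : segment ℝ u w ⊆ oR δ z (ρ / 2) := (convex_oR δ z _).segment_subset h.u_reg h.w_reg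
  have h1 : segment ℝ u w ⊆ V := by
    refine (convex_segment u w).isPreconnected.subset_of_closure_inter_subset hVo
      ⟨u, left_mem_segment ℝ u w, mem_connectedComponentIn huX⟩ ?_
    rintro x ⟨g1, g2⟩
    refine comp_closed huX g1 ⟨hcon x (closure_mono hVK g1), ?_⟩
    exact oR_mono hδ (by linarith) (hsub g2)
  have h2 : w ∈ V := h1 (right_mem_segment ℝ u w)
  exact h.nj (Ob_Cn hδ hρ h (by linarith) (hVK h2))

/-- A site of the right parity near a point. -/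
theorem exists_site (hδ : 0 < δ) (c : Bool) (x : ℂ) : ∃ z : ℤ × ℤ, (Even (z.1 + z.2) ↔ c = true) ∧
    |x.re - x.im - δ * z.1| ≤ δ ∧ |x.re + x.im - δ * z.2| ≤ δ := by
  have key : ∀ a : ℝ, |a - δ * (⌊a / δ⌋ : ℤ)| ≤ δ ∧ |a - δ * ((⌊a / δ⌋ + 1 : ℤ) : ℝ)| ≤ δ := by
    intro a
    have h1 := Int.floor_le (a / δ)
    have h2 := Int.lt_floor_add_one (a / δ)
    rw [le_div_iff₀ hδ] at h1
    rw [div_lt_iff₀ hδ] at h2
    push_cast
    constructor <;> rw [abs_le] <;> constructor <;> nlinarith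
  obtain ⟨a1, a2⟩ := key (x.re - x.im)
  obtain ⟨b1, -⟩ := key (x.re + x.im)
  set s : ℤ := ⌊(x.re - x.im) / δ⌋
  set t : ℤ := ⌊(x.re + x.im) / δ⌋
  by_cases h : (Even (s + t) ↔ c = true)
  · exact ⟨(s, t), h, a1, b1⟩
  · refine ⟨(s + 1, t), ?_, a2, b1⟩
    have e : s + 1 + t = (s + t) + 1 := by ring
    show Even (s + 1 + t) ↔ c = true
    rw [e, Int.even_add_one]
    tauto

/-- The union of the obstacles. -/
def OO {n : ℕ} (p : ZMod n → ℤ × ℤ) (k : ℕ) (S : Finset (ℤ × ℤ)) (A : Finset (Sym2 (ℤ × ℤ)))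
    (j : ℕ) (δ : ℝ) (c : Bool) (ρ R : ℕ) : Set ℂ := ⋃₀ Obs p k S A j δ c ρ R

theorem Ob_sq (hδ : 0 < δ) (hρ : 32 ≤ ρ) {x : ℤ × ℤ} (hx : x ∈ dk p k S A j)
    (hxB : x ∉ Bad p k S A j δ c ρ R) {K : Set ℂ} (hK : K ∈ Obs p k S A j δ c ρ R) :
    Disjoint (SqD δ x) K := by
  classical
  obtain ⟨z, u, w, hz, h, rfl⟩ := hK
  rw [Set.disjoint_left]
  intro y hy1 hy2
  refine hxB (Finset.mem_filter.2 ⟨hx, z, u, w, hz, h, y, hy1, ?_⟩)
  exact Ob_Cn hδ hρ h (by linarith) hy2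

/-- **[OB]** The closed squares off `Bad` do not meet the obstacles. -/
theorem ob (hδ : 0 < δ) (hρ : 32 ≤ ρ) : ∀ x ∈ dk p k S A j, x ∉ Bad p k S A j δ c ρ R →
    Disjoint (SqD δ x) (OO p k S A j δ c ρ R) := fun _ hx hxB =>
  Set.disjoint_sUnion_right.2 fun _ hK => Ob_sq hδ hρ hx hxB hK

/-- **[OBS]** The obstacles. -/
theorem obs (hδ : 0 < δ) (hρ : 32 ≤ ρ) (hR : ρ ≤ R) :
    (∀ K ∈ Obs p k S A j δ c ρ R, K ⊆ Dn p k S A j δ ∧ IsPreconnected K ∧
      ∀ x ∈ K, ∀ y ∈ K, dist x y ≤ 2 * ρ * δ) ∧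
    (∀ K ∈ Obs p k S A j δ c ρ R, ∃ s ∈ closure K, s ∉ Dn p k S A j δ) ∧
    (∀ K ∈ Obs p k S A j δ c ρ R, closure K ∩ Dn p k S A j δ ⊆ K) ∧
    (∀ x ∈ dk p k S A j, x ∉ Bad p k S A j δ c ρ R → ∀ K ∈ Obs p k S A j δ c ρ R,
      Disjoint (SqD δ x) K) ∧
    (∀ K ∈ Obs p k S A j δ c ρ R, ∃ (z : ℤ × ℤ) (u w : ℂ), (Even (z.1 + z.2) ↔ c = true) ∧
      Cfl p k S A j δ c z ρ R u w ∧ u ∈ K ∧ K ⊆ Cn p k S A j δ z ρ u) ∧
    (∀ u ∈ Dn p k S A j δ, ∀ y ∈ Dn p k S A j δ, dist u y ≤ δ * ρ / 8 →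
      ¬ Jd (Dn p k S A j δ) (δ * (R + 2)) u y →
      ¬ NearS (Dn p k S A j δ) (Sd p k S A j δ c) (2 * ρ * δ) u →
      ¬ NearS (Dn p k S A j δ) (Sd p k S A j δ c) (2 * ρ * δ) y →
      ¬ (∃ C : Set ℂ, IsPreconnected C ∧ C ⊆ Dn p k S A j δ ∧ C ⊆ ball u (δ * (R + 2)) ∧ u ∈ C ∧
        tip p k A j δ ∈ closure C) → ∃ K ∈ Obs p k S A j δ c ρ R, u ∈ K) := by
  classical
  have h16 : (32 : ℝ) ≤ ρ := by exact_mod_cast hρ
  have hRr : (ρ : ℝ) ≤ R := by exact_mod_cast hR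
  refine ⟨?_, ?_, ?_, ?_, ?_, ?_⟩
  · rintro _ ⟨z, u, w, -, h, rfl⟩
    refine ⟨fun x hx => (Ob_sub hx).1, conn_Ob, fun x hx y hy => ?_⟩
    refine (dist_qR (Ob_sub hx).2 (Ob_sub hy).2).trans ?_
    nlinarith
  · rintro _ ⟨z, u, w, -, h, rfl⟩
    exact Ob_bd hδ hρ hR h
  · rintro _ ⟨z, u, w, -, h, rfl⟩
    exact Ob_closed hδ hρ h
  · exact fun x hx hxB K hK => Ob_sq hδ hρ hx hxB hK
  · rintro _ ⟨z, u, w, hz, h, rfl⟩
    exact ⟨z, u, w, hz, h, mem_Ob hδ hρ h, Ob_Cn hδ hρ h (by linarith)⟩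
  · intro u hu y hy huy h1 h2 h3 h4
    obtain ⟨z, hz, z1, z2⟩ := exists_site hδ c u
    have hδρ : δ * 32 ≤ δ * ρ := mul_le_mul_of_nonneg_left h16 hδ.le
    have hureg : u ∈ oR δ z (ρ / 2) := by
      refine ⟨z1.trans_lt ?_, z2.trans_lt ?_⟩ <;> linarith
    obtain ⟨c1, c2⟩ := coord_le_dist (x := y) (y := u)
    rw [dist_comm] at c1 c2
    have hyreg : y ∈ oR δ z (ρ / 2) := by
      rw [abs_le] at z1 z2 c1 c2
      constructor <;> rw [abs_lt] <;> constructor <;> linarith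
    -- the regions around `z` and the balls around `u`
    have hball : ∀ r : ℝ, ∀ x ∈ oR δ z r, dist x u < δ * (r + 2) := by
      rintro r x ⟨x1, x2⟩
      have h5 : dist x u ≤ δ * (r + 1) := by
        rw [abs_le] at z1 z2
        rw [abs_lt] at x1 x2
        refine dist_le_coord ?_ ?_ <;> rw [abs_le] <;> constructor <;> linarith
      linarith
    have hbally : ∀ x ∈ oR δ z (ρ + 16), dist x y < 2 * ρ * δ := by
      intro x hx
      have h6 := dist_triangle x u y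
      have h7 := hball (ρ + 16) x hx
      linarith
    have hmem : ∀ r : ℝ, (ρ : ℝ) ≤ r → u ∈ Cn p k S A j δ z r u := fun r hr =>
      mem_connectedComponentIn ⟨hu, oR_mono hδ (by linarith) hureg⟩
    have hmemy : ∀ r : ℝ, (ρ : ℝ) ≤ r → y ∈ Cn p k S A j δ z r y := fun r hr =>
      mem_connectedComponentIn ⟨hy, oR_mono hδ (by linarith) hyreg⟩
    have hsu : Disjoint (Cn p k S A j δ z (ρ + 16) u) (Sd p k S A j δ c) := by
      rw [Set.disjoint_left]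
      intro x hx1 hx2
      refine h2 ⟨Cn p k S A j δ z (ρ + 16) u, conn_Cn, fun x hx => (Cn_sub hx).1, fun x hx => ?_,
        hmem _ (by linarith), x, hx1, hx2⟩
      have h5 := hball _ x (Cn_sub hx).2
      rw [mem_ball]
      linarith
    have hsw : Disjoint (Cn p k S A j δ z (ρ + 16) y) (Sd p k S A j δ c) := by
      rw [Set.disjoint_left]
      intro x hx1 hx2
      refine h3 ⟨Cn p k S A j δ z (ρ + 16) y, conn_Cn, fun x hx => (Cn_sub hx).1, fun x hx => ?_,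
        hmemy _ (by linarith), x, hx1, hx2⟩
      exact mem_ball.2 (hbally x (Cn_sub hx).2)
    have hC : Cfl p k S A j δ c z ρ R u y := by
      refine ⟨hu, hy, hureg, hyreg, ?_, ?_, ?_, ?_⟩
      · intro h5
        refine h1 ⟨Cn p k S A j δ z R u, conn_Cn, fun x hx => (Cn_sub hx).1, fun x hx => ?_,
          hmem _ hRr, h5⟩
        exact mem_ball.2 (hball _ x (Cn_sub hx).2)
      · exact hsu
      · exact hsw
      · intro h5
        refine h4 ⟨Cn p k S A j δ z R u, conn_Cn, fun x hx => (Cn_sub hx).1, fun x hx => ?_,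
          hmem _ hRr, h5⟩
        exact mem_ball.2 (hball _ x (Cn_sub hx).2)
    exact ⟨_, ⟨z, u, y, hz, hC, rfl⟩, mem_Ob hδ hρ hC⟩

end

end Vale.Agent.P167.H397.K
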